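import Vale.Agent.P011.D4I.H691.Na
import Vale.Agent.P011.D4T.H691.Std

/-!
Block D4I (helper691): transport along a change of `j`, `l`.
-/

open NumberField Topology

set_option linter.unusedSectionVars false

namespace Vale.Agent.P011.D4I

open Vale.Agent.P011.MPQ Vale.Agent.P011.D4 Vale.Agent.P011.D4.Oct Vale.Agent.P011.E6
open Vale.Agent.P011.D4T Vale.Agent.P011.D4T.H691

variable {k L E : Type} [Field k] [Field L] [Field E] [Algebra k L] [Algebra k E] [Algebra L E]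
  [IsScalarTower k L E] {ρ σ ι : E ≃ₐ[k] E} {α : E}
  {a b c : kˣ} {q : Lˣ}

/-- The hypotheses do not depend on `j`, `l`. -/
theorem hyTripI [NeZero (2 : k)] (H : HyI ρ σ ι α a b c q) {b' c' : kˣ} {j l : Oct a b c}
    (h : Trip a b' c' gi j l) : HyI ρ σ ι α a b' c' q where
  h3 := H.h3
  ρL := H.ρL
  ρ3 := H.ρ3
  σ2 := H.σ2
  ι2 := H.ι2
  comm := H.comm
  σι := H.σι
  ιρ := H.ιρ
  σL := H.σL
  ιL := H.ιL
  fixL := H.fixL
  fixk := H.fixk
  α2 := H.α2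
  ρα := H.ρα
  σα := H.σα
  ια := H.ια
  hq := H.hq
  hdiv := (aniso_of_trip H.hdiv h).2.2.2
  hre τ hτ := by
    obtain ⟨h1, h2, h3⟩ := H.hre τ hτ
    have h4 := (DefAt.of_neg (τ := τ) (a := a) (b := b) (c := c) hτ h1 h2).trip h
    exact ⟨h4.neg.2.1, h4.neg.2.2, h3⟩

variable [NeZero (2 : E)] {b' c' : kˣ} {j l : Oct a b c} (h : Trip a b' c' gi j l)

theorem cj_isKapI {g : OctL E a b' c' ≃ₗ[E] OctL E a b' c'} {κ : Lˣ} (hg : IsKapI ρ g κ) :
    IsKapI ρ (cjE (tripO E h) g) κ := by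
  intro x y
  obtain ⟨x, rfl⟩ := (tripO E h).surjective x
  obtain ⟨y, rfl⟩ := (tripO E h).surjective y
  rw [← D4T.tripO_tri, cj_apply, cj_apply, cj_apply, hg, map_smul, D4T.tripO_tri]

theorem cj_isKapI' {g : OctL E a b' c' ≃ₗ[E] OctL E a b' c'} {κ : Lˣ}
    (hg : IsKapI ρ (cjE (tripO E h) g) κ) : IsKapI ρ g κ := by
  intro x y
  apply (tripO E h).injective
  have h1 := hg (tripO E h x) (tripO E h y)
  rwa [← D4T.tripO_tri, cj_apply, cj_apply, cj_apply, ← D4T.tripO_tri, ← map_smul] at h1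

theorem cj_Im {g : OctL E a b' c' ≃ₗ[E] OctL E a b' c'} :
    (∀ x, cjE (tripO E h) g (Im ι x) = Im ι (cjE (tripO E h) g x)) ↔
      ∀ x, g (Im ι x) = Im ι (g x) := by
  constructor
  · intro hg x
    apply (tripO E h).injective
    have h1 := hg (tripO E h x)
    rwa [← tripO_Im, cj_apply, cj_apply, ← tripO_Im] at h1
  · intro hg x
    obtain ⟨x, rfl⟩ := (tripO E h).surjective x
    rw [← tripO_Im, cj_apply, cj_apply, hg, tripO_Im]

theorem cj_mem_ATI {g : OctL E a b' c' ≃ₗ[E] OctL E a b' c'} :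
    cjE (tripO E h) g ∈ ATI ρ σ ι α a b c q ↔ g ∈ ATI ρ σ ι α a b' c' q := by
  constructor
  · rintro ⟨⟨κ, h1⟩, h2, h3⟩
    exact ⟨⟨κ, cj_isKapI' h h1⟩, (cj_Jm h).1 h2, (cj_Im h).1 h3⟩
  · rintro ⟨⟨κ, h1⟩, h2, h3⟩
    exact ⟨⟨κ, cj_isKapI h h1⟩, (cj_Jm h).2 h2, (cj_Im h).2 h3⟩

theorem cj_mem_GTI {g : OctL E a b' c' ≃ₗ[E] OctL E a b' c'} :
    cjE (tripO E h) g ∈ GTI ρ σ ι α a b c q ↔ g ∈ GTI ρ σ ι α a b' c' q :=
  ⟨fun h1 => ⟨(cj_tri h).1 h1.1, (cj_Jm h).1 h1.2.1, (cj_Im h).1 h1.2.2⟩,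
    fun h1 => ⟨(cj_tri h).2 h1.1, (cj_Jm h).2 h1.2.1, (cj_Im h).2 h1.2.2⟩⟩

variable (ρ σ ι α q) in
/-- Conjugation of the adjoint groups. -/
noncomputable def cjAI : ATI ρ σ ι α a b' c' q ≃* ATI ρ σ ι α a b c q where
  toFun z := ⟨cjE (tripO E h) z.1, (cj_mem_ATI h).2 z.2⟩
  invFun z := ⟨(cjE (tripO E h)).symm z.1, (cj_mem_ATI h).1 (by
    rw [MulEquiv.apply_symm_apply]; exact z.2)⟩
  left_inv z := Subtype.ext ((cjE (tripO E h)).symm_apply_apply z.1)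
  right_inv z := Subtype.ext ((cjE (tripO E h)).apply_symm_apply z.1)
  map_mul' z w := Subtype.ext (map_mul (cjE (tripO E h)) z.1 w.1)

variable (ρ σ ι α q) in
/-- Conjugation of the groups `GTI`. -/
noncomputable def cjGI : GTI ρ σ ι α a b' c' q ≃* GTI ρ σ ι α a b c q where
  toFun z := ⟨cjE (tripO E h) z.1, (cj_mem_GTI h).2 z.2⟩
  invFun z := ⟨(cjE (tripO E h)).symm z.1, (cj_mem_GTI h).1 (by
    rw [MulEquiv.apply_symm_apply]; exact z.2)⟩
  left_inv z := Subtype.ext ((cjE (tripO E h)).symm_apply_apply z.1)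
  right_inv z := Subtype.ext ((cjE (tripO E h)).apply_symm_apply z.1)
  map_mul' z w := Subtype.ext (map_mul (cjE (tripO E h)) z.1 w.1)

theorem kapI_cjAI (z : ATI ρ σ ι α a b' c' q) : kapI (cjAI ρ σ ι α q h z) = kapI z :=
  kapI_eq (cj_isKapI h (isKapI_kapI z))

theorem cj_mem_RsI {g : OctL E a b' c' ≃ₗ[E] OctL E a b' c'} (hg : g ∈ RsI ρ σ ι α a b' c' q) :
    cjE (tripO E h) g ∈ RsI ρ σ ι α a b c q := by
  obtain ⟨h1, h2⟩ := mem_RsI.1 hg
  exact mem_RsI.2 ⟨_, fres_map (cjGI ρ σ ι α q h) h2⟩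

theorem cjAI_isNI {z : ATI ρ σ ι α a b' c' q} (hz : IsNI ρ σ ι α a b' c' q z) :
    IsNI ρ σ ι α a b c q (cjAI ρ σ ι α q h z) := by
  obtain ⟨l', g, hg, h1⟩ := hz
  refine ⟨l', _, cj_mem_RsI h hg, fun x => ?_⟩
  change cjE (tripO E h) z.1 x = _
  obtain ⟨x, rfl⟩ := (tripO E h).surjective x
  rw [cj_apply, cj_apply, h1, map_smul]

theorem cjAI_mem_stabI {z : ATI ρ σ ι α a b' c' q} :
    cjAI ρ σ ι α q h z ∈ stabI ρ σ ι α q h ↔ z ∈ stab0I ρ σ ι α a b' c' q := by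
  have key : ∀ y : OctL E a b' c', tQ E h (tripO E h y) = tripO E h (t0 E a b' c' y) := by
    intro y
    change tripO E h (t0 E a b' c' ((tripO E h).symm (tripO E h y))) = _
    rw [LinearEquiv.symm_apply_apply]
  constructor
  · intro hz y
    have hz' : cjE (tripO E h) z.1 * tQ E h = tQ E h * cjE (tripO E h) z.1 := hz
    have h1 := congrArg (fun f : OctL E a b c ≃ₗ[E] OctL E a b c => f (tripO E h y)) hz'
    change cjE (tripO E h) z.1 (tQ E h (tripO E h y)) =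
      tQ E h (cjE (tripO E h) z.1 (tripO E h y)) at h1
    rw [key, cj_apply, cj_apply, key] at h1
    exact (tripO E h).injective h1
  · intro hz
    change cjE (tripO E h) z.1 * tQ E h = tQ E h * cjE (tripO E h) z.1
    apply LinearEquiv.ext
    intro x
    obtain ⟨y, rfl⟩ := (tripO E h).surjective x
    change cjE (tripO E h) z.1 (tQ E h (tripO E h y)) =
      tQ E h (cjE (tripO E h) z.1 (tripO E h y))
    rw [key, cj_apply, cj_apply, key, hz]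

theorem exists_of_mem_stabI {z : ATI ρ σ ι α a b c q} (hz : z ∈ stabI ρ σ ι α q h) :
    ∃ z' ∈ stab0I ρ σ ι α a b' c' q, cjAI ρ σ ι α q h z' = z := by
  refine ⟨(cjAI ρ σ ι α q h).symm z, ?_, (cjAI ρ σ ι α q h).apply_symm_apply z⟩
  rw [← cjAI_mem_stabI h, MulEquiv.apply_symm_apply]
  exact hz

theorem stabI_std (h : Trip a b c (gi : Oct a b c) gj gl) :
    stabI ρ σ ι α q h = stab0I ρ σ ι α a b c q := by
  ext z
  constructor
  · intro hz x
    have hz' : z.1 * tQ E h = tQ E h * z.1 := hz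
    have h1 := congrArg (fun f : OctL E a b c ≃ₗ[E] OctL E a b c => f x) hz'
    change z.1 (tQ E h x) = tQ E h (z.1 x) at h1
    rwa [tQ_std, tQ_std] at h1
  · intro hz
    change z.1 * tQ E h = tQ E h * z.1
    apply LinearEquiv.ext
    intro x
    change z.1 (tQ E h x) = tQ E h (z.1 x)
    rw [tQ_std, tQ_std]
    exact hz x

theorem cjAI_comp {b1 c1 b2 c2 : kˣ} {j1 l1 : Oct a b c} (h1 : Trip a b1 c1 gi j1 l1)
    {j2 l2 : Oct a b1 c1} (h2 : Trip a b2 c2 gi j2 l2) {j l : Oct a b c}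
    (h : Trip a b2 c2 gi j l) (hh : ∀ x : OctL E a b2 c2, tripO E h x =
      tripO E h1 (tripO E h2 x)) (z : ATI ρ σ ι α a b2 c2 q) :
    cjAI ρ σ ι α q h z = cjAI ρ σ ι α q h1 (cjAI ρ σ ι α q h2 z) := by
  apply Subtype.ext
  apply LinearEquiv.ext
  intro x
  obtain ⟨y, rfl⟩ := (tripO E h).surjective x
  change cjE (tripO E h) z.1 (tripO E h y) = cjE (tripO E h1) (cjE (tripO E h2) z.1) _
  rw [cj_apply, hh y, cj_apply, cj_apply, hh]

theorem stabI_le_stabsI {b' c' : kˣ} {j l : Oct a b c} (h : Trip a b' c' gi j l) :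
    stabI ρ σ ι α q h ≤ stabsI ρ σ ι α a b c q := fun _ hz =>
  Subgroup.subset_closure ⟨b', c', j, l, h, hz⟩

theorem stab0I_le_stabsI [NeZero (2 : k)] : stab0I ρ σ ι α a b c q ≤ stabsI ρ σ ι α a b c q := by
  rw [← stabI_std (trip_std : Trip a b c (gi : Oct a b c) gj gl)]
  exact stabI_le_stabsI _

theorem cjAI_mem_stabsI [NeZero (2 : k)] {b1 c1 : kˣ} {j1 l1 : Oct a b c}
    (h1 : Trip a b1 c1 gi j1 l1)
    {z : ATI ρ σ ι α a b1 c1 q} (hz : z ∈ stabsI ρ σ ι α a b1 c1 q) :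
    cjAI ρ σ ι α q h1 z ∈ stabsI ρ σ ι α a b c q := by
  have key : stabsI ρ σ ι α a b1 c1 q ≤ (stabsI ρ σ ι α a b c q).comap
      (cjAI ρ σ ι α q h1 : ATI ρ σ ι α a b1 c1 q →* ATI ρ σ ι α a b c q) := by
    rw [stabsI, Subgroup.closure_le]
    rintro z ⟨b2, c2, j2, l2, h2, hz⟩
    obtain ⟨z0, hz0, rfl⟩ := exists_of_mem_stabI h2 hz
    obtain ⟨j, l, h, hh⟩ := exists_comp (E := E) h1 h2
    change cjAI ρ σ ι α q h1 (cjAI ρ σ ι α q h2 z0) ∈ stabsI ρ σ ι α a b c q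
    rw [← cjAI_comp h1 h2 h hh]
    exact stabI_le_stabsI h ((cjAI_mem_stabI h).2 hz0)
  exact key hz

end Vale.Agent.P011.D4I
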