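import Vale.Agent.P011.D4I.H691.Tr

/-!
Block D4I (helper691): the elements of class one in a centraliser.
-/

open NumberField Topology

set_option linter.unusedSectionVars false

namespace Vale.Agent.P011.D4I

open Vale.Agent.P011.MPQ Vale.Agent.P011.D4 Vale.Agent.P011.D4.Oct Vale.Agent.P011.E6
open Vale.Agent.P011.D4T

namespace H691

section alg

variable {k L E : Type} [Field k] [Field L] [Field E] [Algebra k L] [Algebra k E] [Algebra L E]
  [IsScalarTower k L E] {ρ σ ι : E ≃ₐ[k] E} {α : E}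
  {a b c : kˣ} {q : Lˣ}

theorem psiL_smul (m : L) (x : Qt (up L a) (q * up L b)) :
    (psiL α q (m • x) : Qt (up E a) (up E b)) = algebraMap L E m • psiL α q x := by
  apply QuaternionAlgebra.ext
  · change algebraMap L E (m * x.re) = algebraMap L E m * algebraMap L E x.re
    rw [map_mul]
  · change algebraMap L E (m * x.imI) = algebraMap L E m * algebraMap L E x.imI
    rw [map_mul]
  · change (algebraMap L E (q : L) * (algebraMap L E (m * x.imJ) + algebraMap L E (m * x.imK) * α) +
        (algebraMap L E (m * x.imJ) - algebraMap L E (m * x.imK) * α)) / 2 =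
      algebraMap L E m *
        ((algebraMap L E (q : L) * (algebraMap L E x.imJ + algebraMap L E x.imK * α) +
        (algebraMap L E x.imJ - algebraMap L E x.imK * α)) / 2)
    rw [map_mul, map_mul]
    ring
  · change (algebraMap L E (q : L) * (algebraMap L E (m * x.imJ) + algebraMap L E (m * x.imK) * α) -
        (algebraMap L E (m * x.imJ) - algebraMap L E (m * x.imK) * α)) / (2 * α) =
      algebraMap L E m *
        ((algebraMap L E (q : L) * (algebraMap L E x.imJ + algebraMap L E x.imK * α) -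
        (algebraMap L E x.imJ - algebraMap L E x.imK * α)) / (2 * α))
    rw [map_mul, map_mul]
    ring

theorem nrd_smulQ {F : Type} [Field F] {A B : Fˣ} (m : F) (x : Qt A B) :
    nrd (m • x) = m ^ 2 * nrd x := by
  simp only [nrd, QuaternionAlgebra.re_smul, QuaternionAlgebra.imI_smul,
    QuaternionAlgebra.imJ_smul, QuaternionAlgebra.imK_smul, smul_eq_mul]
  ring

theorem star_smulQ {F : Type} [Field F] {A B : Fˣ} (m : F) (x : Qt A B) :
    star (m • x) = m • star x := by
  ext <;> simp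

/-- The scalars can be taken out of `z(x₀, x; s)`. -/
theorem zFI_scal {x0 : Qt a b} {x : Qt (up L a) (q * up L b)} {s t s' : kˣ} {m : Lˣ}
    (hx : nrd x = algebraMap k L (t : k))
    (hs : algebraMap k E (s : k) = algebraMap L E (m : L) * ρ (algebraMap L E (m : L)) *
      ρ (ρ (algebraMap L E (m : L))) * algebraMap k E (s' : k))
    (y : OctL E a b c) :
    zFI ρ α q x0 ((m : L) • x) s y =
      (algebraMap L E (m : L) * ρ (ρ (algebraMap L E (m : L)))) •
        zFI ρ α q (((t : k) ^ 2 / (s' : k)) • x0) x (t ^ 2) y := by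
  obtain ⟨M, hM⟩ : ∃ M, M = algebraMap L E (m : L) := ⟨_, rfl⟩
  have hm0 : M ≠ 0 := by
    rw [hM]
    exact (map_ne_zero_iff _ (algebraMap L E).injective).2 m.ne_zero
  have hm1 : ρ M ≠ 0 := (map_ne_zero_iff ρ ρ.injective).2 hm0
  have hm2 : ρ (ρ M) ≠ 0 := (map_ne_zero_iff ρ ρ.injective).2 hm1
  have hs0 : algebraMap k E (s' : k) ≠ 0 :=
    (map_ne_zero_iff _ (algebraMap k E).injective).2 s'.ne_zero
  have ht0 : algebraMap k E (t : k) ≠ 0 :=
    (map_ne_zero_iff _ (algebraMap k E).injective).2 t.ne_zero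
  have hq1 : ∀ (u : E) (z : Qt (up E a) (up E b)), qmap ρ (u • z) = ρ u • qmap ρ z := fun u z => by
    apply QuaternionAlgebra.ext
    · exact map_mul ρ u z.re
    · exact map_mul ρ u z.imI
    · exact map_mul ρ u z.imJ
    · exact map_mul ρ u z.imK
  have hE : algebraMap L E (algebraMap k L (t : k)) = algebraMap k E (t : k) :=
    (IsScalarTower.algebraMap_apply k L E _).symm
  rw [← hM] at hs ⊢
  ext1
  · change psiL α q ((m : L) • x) * y.fst * star (qmap ρ (qmap ρ (psiL α q ((m : L) • x)))) =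
      (M * ρ (ρ M)) • (psiL α q x * y.fst * star (qmap ρ (qmap ρ (psiL α q x))))
    rw [psiL_smul, ← hM, hq1, hq1, star_smulQ, smul_mul_assoc, smul_mul_assoc, mul_smul_comm,
      smul_smul]
  · change (algebraMap L E (nrd ((m : L) • x)) * ρ (ρ (algebraMap L E (nrd ((m : L) • x)))) /
        algebraMap k E (s : k)) •
        (qup E x0 * y.snd * star (qmap ρ (psiL α q ((m : L) • x)))) =
      (M * ρ (ρ M)) •
        ((algebraMap L E (nrd x) * ρ (ρ (algebraMap L E (nrd x))) /
          algebraMap k E ((t ^ 2 : kˣ) : k)) •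
        (qup E (((t : k) ^ 2 / (s' : k)) • x0) * y.snd * star (qmap ρ (psiL α q x))))
    have h1 : qup E (((t : k) ^ 2 / (s' : k)) • x0) =
        algebraMap k E ((t : k) ^ 2 / (s' : k)) • qup E x0 := by
      apply QuaternionAlgebra.ext
      · exact map_mul (algebraMap k E) _ x0.re
      · exact map_mul (algebraMap k E) _ x0.imI
      · exact map_mul (algebraMap k E) _ x0.imJ
      · exact map_mul (algebraMap k E) _ x0.imK
    rw [psiL_smul, ← hM, hq1, star_smulQ, mul_smul_comm, h1, smul_mul_assoc, smul_mul_assoc,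
      smul_smul, smul_smul, smul_smul]
    congr 1
    rw [nrd_smulQ, hx]
    simp only [map_mul, map_pow, map_div₀, Units.val_pow_eq_pow_val, hE, AlgEquiv.commutes]
    rw [← hM, hs]
    field_simp

end alg

end H691

section std

variable {k L E : Type} [Field k] [Field L] [Field E]
  [Algebra k L] [Algebra k E] [Algebra L E]
  [IsScalarTower k L E] [NeZero (2 : k)] [NeZero (2 : E)] {ρ σ ι : E ≃ₐ[k] E} {α : E}
  {a b c : kˣ} {q : Lˣ} (H : HyI ρ σ ι α a b c q)

include H

/-- The elements of class one which commute with the standard involution, from `cent`, `exists_z`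
and `mix_mem`. -/
theorem stab0_NI_of
    (hcent : ∀ z : ATI ρ σ ι α a b c q, z ∈ stab0I ρ σ ι α a b c q →
      ∃ (x0 : Qt a b) (x : Qt (up L a) (q * up L b)) (s : kˣ) (l : Lˣ),
        algebraMap k E (nrd x0) * (algebraMap L E (nrd x) * ρ (algebraMap L E (nrd x)) *
          ρ (ρ (algebraMap L E (nrd x)))) = algebraMap k E ((s : k) ^ 2) ∧
        ∀ y, z.1 y = ρ (algebraMap L E (l : L)) • zFI ρ α q x0 x s y)
    (hz : ∀ (x0 : Qt a b) (x : Qt (up L a) (q * up L b)) (s : kˣ),
      algebraMap k E (nrd x0) * (algebraMap L E (nrd x) * ρ (algebraMap L E (nrd x)) *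
          ρ (ρ (algebraMap L E (nrd x)))) = algebraMap k E ((s : k) ^ 2) →
      ∃ z : ATI ρ σ ι α a b c q, z ∈ stab0I ρ σ ι α a b c q ∧
        (∀ κ : Lˣ, nrd x * κ = 1 → IsKapI ρ z.1 κ) ∧ ∀ y, z.1 y = zFI ρ α q x0 x s y)
    (hmix : ∀ (x0 : Qt a b) (x : Qt (up L a) (q * up L b)) (s : kˣ), nrd x0 = s →
      nrd x = algebraMap k L (s : k) → ∀ g : OctL E a b c ≃ₗ[E] OctL E a b c,
      (∀ y : OctL E a b c, g y = (algebraMap k E (s : k))⁻¹ • zFI ρ α q x0 x (s ^ 2) y) →
        g ∈ RsI ρ σ ι α a b c q)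
    {z : ATI ρ σ ι α a b c q} (hz0 : z ∈ stab0I ρ σ ι α a b c q) (hcl : kapI z ∈ SqL k L) :
    IsNI ρ σ ι α a b c q z := by
  obtain ⟨x0, x, s, l, h1, h2⟩ := hcent z hz0
  obtain ⟨z1, -, hz1, hz2⟩ := hz x0 x s h1
  have hν0 : nrd x ≠ 0 := by
    intro h0
    rw [h0, map_zero, zero_mul, zero_mul, mul_zero] at h1
    exact pow_ne_zero 2 s.ne_zero ((map_eq_zero_iff _ (algebraMap k E).injective).1 h1.symm)
  have e1 : z = H.scal l * z1 := by
    apply Subtype.ext
    apply LinearEquiv.ext
    intro y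
    rw [h2, ← hz2, ← H.scal_apply]
    rfl
  have e2 : kapI z1 = (Units.mk0 (nrd x) hν0)⁻¹ := by
    apply kapI_eq
    apply hz1
    rw [Units.val_inv_eq_inv_val]
    exact mul_inv_cancel₀ hν0
  -- the class of the reduced norm
  have e3 : Units.mk0 (nrd x) hν0 ∈ SqL k L := by
    rw [e1, kapI_mul, e2] at hcl
    have h3 := (SqL k L).mul_mem ((SqL k L).inv_mem hcl) (scal_mem_SqLI H l)
    have e4 : (kapI (H.scal l) * (Units.mk0 (nrd x) hν0)⁻¹)⁻¹ * kapI (H.scal l) =
        Units.mk0 (nrd x) hν0 := by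
      rw [mul_inv, inv_inv, mul_comm (kapI (H.scal l))⁻¹, mul_assoc, inv_mul_cancel, mul_one]
    rwa [e4] at h3
  obtain ⟨t, m, h3⟩ := mem_SqL.1 e3
  have h4 : nrd x = algebraMap k L (t : k) * (m : L) ^ 2 := by
    have := congrArg (fun u : Lˣ => (u : L)) h3
    exact this
  obtain ⟨n, hn⟩ := H.exists_norm m
  obtain ⟨x', hx'⟩ : ∃ x' : Qt (up L a) (q * up L b), x' = (m : L)⁻¹ • x := ⟨_, rfl⟩
  have hm0 : (m : L) ≠ 0 := m.ne_zero
  have hxx : x = (m : L) • x' := by
    rw [hx', smul_smul, mul_inv_cancel₀ hm0, one_smul]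
  have hnx' : nrd x' = algebraMap k L (t : k) := by
    rw [hx', H691.nrd_smulQ, h4]
    field_simp
  obtain ⟨s', hs'⟩ : ∃ s' : kˣ, s = n * s' := ⟨n⁻¹ * s, by rw [mul_inv_cancel_left]⟩
  have hs : algebraMap k E (s : k) = algebraMap L E (m : L) * ρ (algebraMap L E (m : L)) *
      ρ (ρ (algebraMap L E (m : L))) * algebraMap k E (s' : k) := by
    rw [hs', Units.val_mul, map_mul, hn]
  have hn0 : algebraMap k E (n : k) ≠ 0 :=
    (map_ne_zero_iff _ (algebraMap k E).injective).2 n.ne_zero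
  have hE : algebraMap L E (algebraMap k L (t : k)) = algebraMap k E (t : k) :=
    (IsScalarTower.algebraMap_apply k L E _).symm
  have h7 : nrd x0 * (t : k) ^ 3 = (s' : k) ^ 2 := by
    apply (algebraMap k E).injective
    have h8 : algebraMap k E (nrd x0) * (algebraMap k E (t : k) ^ 3 * algebraMap k E (n : k) ^ 2) =
        (algebraMap k E (n : k) * algebraMap k E (s' : k)) ^ 2 := by
      rw [← map_mul (algebraMap k E) (n : k) (s' : k), ← Units.val_mul, ← hs',
        ← map_pow (algebraMap k E) (s : k) 2, ← h1, h4]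
      simp only [map_mul, map_pow, hE, AlgEquiv.commutes]
      rw [hn]
      ring
    rw [map_mul, map_pow, map_pow]
    have h9 : algebraMap k E (n : k) ^ 2 ≠ 0 := pow_ne_zero 2 hn0
    apply mul_right_cancel₀ h9
    linear_combination h8
  have ht0 : (t : k) ≠ 0 := t.ne_zero
  have hs0 : (s' : k) ≠ 0 := s'.ne_zero
  have h10 : nrd (((t : k) ^ 2 / (s' : k)) • x0) = (t : k) := by
    rw [H691.nrd_smulQ]
    field_simp
    linear_combination h7
  -- the scalar and the element of `GTI`
  obtain ⟨r, hr⟩ : ∃ r : Lˣ, r = l * (m⁻¹ * up L n) * up L t := ⟨_, rfl⟩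
  have hM0 : algebraMap L E (m : L) ≠ 0 :=
    (map_ne_zero_iff _ (algebraMap L E).injective).2 hm0
  have hrE : ρ (algebraMap L E (r : L)) = ρ (algebraMap L E (l : L)) *
      (algebraMap L E (m : L) * ρ (ρ (algebraMap L E (m : L)))) * algebraMap k E (t : k) := by
    have hM1 : ρ (algebraMap L E (m : L)) ≠ 0 := (map_ne_zero_iff ρ ρ.injective).2 hM0
    have e5 : algebraMap L E (r : L) = algebraMap L E (l : L) *
        ((algebraMap L E (m : L))⁻¹ * algebraMap k E (n : k)) * algebraMap k E (t : k) := by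
      rw [hr, Units.val_mul, Units.val_mul, Units.val_mul, Units.val_inv_eq_inv_val, map_mul,
        map_mul, map_mul, map_inv₀, IsScalarTower.algebraMap_apply k L E,
        IsScalarTower.algebraMap_apply k L E]
      rfl
    rw [e5]
    simp only [map_mul, map_inv₀, AlgEquiv.commutes]
    rw [hn]
    field_simp
  have hg : ∀ y, ((H.scal r)⁻¹ * z : ATI ρ σ ι α a b c q).1 y = (algebraMap k E (t : k))⁻¹ •
      zFI ρ α q (((t : k) ^ 2 / (s' : k)) • x0) x' (t ^ 2) y := by
    intro y
    have h11 : z.1 y = ρ (algebraMap L E (r : L)) • ((algebraMap k E (t : k))⁻¹ •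
        zFI ρ α q (((t : k) ^ 2 / (s' : k)) • x0) x' (t ^ 2) y) := by
      have hE0 : algebraMap k E (t : k) ≠ 0 :=
        (map_ne_zero_iff _ (algebraMap k E).injective).2 ht0
      rw [h2, hxx, H691.zFI_scal hnx' hs, smul_smul, smul_smul, hrE]
      congr 1
      field_simp
    apply (H.scal r).1.injective
    rw [H.scal_apply, H.scal_apply, ← h11, ← H.scal_apply]
    change (H.scal r * ((H.scal r)⁻¹ * z) : ATI ρ σ ι α a b c q).1 y = z.1 y
    rw [mul_inv_cancel_left]
  refine ⟨r, _, hmix _ _ t h10 hnx' _ hg, fun y => ?_⟩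
  rw [← H.scal_apply]
  change z.1 y = (H.scal r * ((H.scal r)⁻¹ * z) : ATI ρ σ ι α a b c q).1 y
  rw [mul_inv_cancel_left]

end std

end Vale.Agent.P011.D4I
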